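import Mathlib

/-! Bosonic Fock space, states, entropy, beam splitter. -/

namespace Vale.Agent.P369

/-- Occupation numbers of `n` modes. -/
abbrev Idx (n : ℕ) : Type := Fin n → ℕ

/-- The Hilbert space of square summable families indexed by `ι`. -/
abbrev Fock (ι : Type) : Type := lp (fun _ : ι => ℂ) 2

/-- Bounded operators. -/
abbrev Op (ι : Type) : Type := Fock ι →L[ℂ] Fock ι

/-- Basis vectors. -/
noncomputable def ket {ι : Type} [DecidableEq ι] (k : ι) : Fock ι := lp.single 2 k 1

/-- Matrix elements. -/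
noncomputable def ent {ι : Type} [DecidableEq ι] (T : Op ι) (k l : ι) : ℂ :=
  inner ℂ (ket k) (T (ket l))

/-- Density operators: positive, of trace one. -/
structure IsState {ι : Type} [DecidableEq ι] (ρ : Op ι) : Prop where
  pos : ρ.IsPositive
  trace : HasSum (fun k => ent ρ k k) 1

/-- Finite mean photon number. -/
def FiniteEnergy {n : ℕ} (ρ : Op (Idx n)) : Prop :=
  Summable fun k : Idx n => ((∑ j, k j : ℕ) : ℝ) * (ent ρ k k).re

/-- The operator `-T log T`, by the continuous functional calculus. -/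
noncomputable def negLog {H : Type} [NormedAddCommGroup H] [InnerProductSpace ℂ H]
    [CompleteSpace H] (T : H →L[ℂ] H) : H →L[ℂ] H := cfc Real.negMulLog T

/-- Von Neumann entropy: the trace of `-ρ log ρ`. -/
noncomputable def entropy {ι : Type} [DecidableEq ι] (ρ : Op ι) : ℝ :=
  ∑' k, (ent (negLog ρ) k k).re

/-- The entropy of a one-mode thermal state with mean photon number `t`. -/
noncomputable def g (t : ℝ) : ℝ := (t + 1) * Real.log (t + 1) - t * Real.log t

/-- The entropy photon number. -/
noncomputable def photon {n : ℕ} (ρ : Op (Idx n)) : ℝ :=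
  Function.invFunOn g (Set.Ici 0) (entropy ρ / n)

/-- The annihilation operator `a_j` acting on coefficient families. -/
noncomputable def annA {n : ℕ} (j : Fin n) (ψ : Idx n × Idx n → ℂ) : Idx n × Idx n → ℂ :=
  fun z => (Real.sqrt (z.1 j + 1) : ℂ) * ψ (z.1 + Pi.single j 1, z.2)

/-- The annihilation operator `b_j` acting on coefficient families. -/
noncomputable def annB {n : ℕ} (j : Fin n) (ψ : Idx n × Idx n → ℂ) : Idx n × Idx n → ℂ :=
  fun z => (Real.sqrt (z.2 j + 1) : ℂ) * ψ (z.1, z.2 + Pi.single j 1)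

/-- The coefficient family of a vector. -/
def coef {ι : Type} (v : Fock ι) : ι → ℂ := v

/-- An operator applied to a vector. -/
noncomputable def act {ι : Type} (T : Op ι) (v : Fock ι) : Fock ι := T v

/-- Unitary operators. -/
def IsUnitary {ι : Type} (U : Op ι) : Prop := U ∈ unitary (Op ι)

/-- The operator `U σ U†`. -/
noncomputable def conjOp {ι : Type} (U σ : Op ι) : Op ι := U * σ * star U

/-- The beam splitter: a unitary fixing the vacuum with `a_j U = U (√η a_j + √(1-η) b_j)` and
`b_j U = U (-√(1-η) a_j + √η b_j)` on basis vectors. -/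
structure IsBeamSplitter {n : ℕ} (η : ℝ) (U : Op (Idx n × Idx n)) : Prop where
  unit : IsUnitary U
  vac : act U (ket (0, 0)) = ket (0, 0)
  relA : ∀ (j : Fin n) (y : Idx n × Idx n) (φ : Fock (Idx n × Idx n)),
    (∀ z, coef φ z = (Real.sqrt η : ℂ) * annA j (coef (ket y)) z +
      (Real.sqrt (1 - η) : ℂ) * annB j (coef (ket y)) z) →
      annA j (coef (act U (ket y))) = coef (act U φ)
  relB : ∀ (j : Fin n) (y : Idx n × Idx n) (φ : Fock (Idx n × Idx n)),
    (∀ z, coef φ z = -(Real.sqrt (1 - η) : ℂ) * annA j (coef (ket y)) z +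
      (Real.sqrt η : ℂ) * annB j (coef (ket y)) z) →
      annB j (coef (act U (ket y))) = coef (act U φ)

/-- `σ` is the tensor product of `ρ` and `ρ'`. -/
def IsTensor {ι : Type} [DecidableEq ι] (σ : Op (ι × ι)) (ρ ρ' : Op ι) : Prop :=
  ∀ k l k' l', ent σ (k, l) (k', l') = ent ρ k k' * ent ρ' l l'

/-- `ρ` is the trace of `ω` over the second factor. -/
def IsMarginal {ι : Type} [DecidableEq ι] (ρ : Op ι) (ω : Op (ι × ι)) : Prop :=
  ∀ p p', HasSum (fun q => ent ω (p, q) (p', q)) (ent ρ p p')

end Vale.Agent.P369
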